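import Vale.Agent.N015P.Comb
import Vale.Agent.P015.M.AllC

/-!
# P015: every long walk meets many of the prescribed classes at one point
-/

namespace Vale.Agent.N015P

open Filter GaussianInt Vale.Agent.P006.CLS Vale.Agent.P015.H222

theorem exists_lim {α : Type*} (U : Ultrafilter ℕ) (x : ℕ → α) {s : Set α} (hs : s.Finite)
    (hx : ∀ᶠ k in U, x k ∈ s) : ∃ a, ∀ᶠ k in U, x k = a := by
  obtain ⟨a, -, ha⟩ := Ultrafilter.eq_pure_of_finite_mem (f := U.map x) hs hx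
  have h : {a} ∈ U.map x := by rw [ha]; simp
  exact ⟨a, h⟩

/-- roots of `-1` and classes modulo the primes `1 mod 4` -/
structure Sys where
  /-- the roots -/
  s : ℕ → ℤ
  /-- the classes -/
  c : ℕ → ℤ
  root : ∀ p : ℕ, p.Prime → p % 4 = 1 → (p : ℤ) ∣ s p ^ 2 + 1

/-- `z` lies in the class modulo `p` -/
def Hit (ω : Sys) (p : ℕ) (z : GaussianInt) : Prop :=
  p.Prime ∧ p % 4 = 1 ∧ ((z.re + ω.s p * z.im : ℤ) : ZMod p) = ω.c p

theorem base (D : ℝ) (M : ℕ) : ∃ k, ∀ ω f, Walk D k f →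
    ∃ p, M < p ∧ p ≤ k ∧ ∃ n ≤ k, Hit ω p (f n) := by
  by_contra! h
  choose ω f hw hm using h
  let U := hyperfilter ℕ
  have ev : ∀ n : ℕ, ∀ᶠ k in (U : Filter ℕ), n ≤ k := fun n =>
    (eventually_ge_atTop n).filter_mono Nat.hyperfilter_le_atTop
  have l1 : ∀ n, ∃ a : ℤ × ℤ, ∀ᶠ k in U,
      ((f k n).re - (f k 0).re, (f k n).im - (f k 0).im) = a := fun n =>
    exists_lim U _ (box ⌈n * |D|⌉₊).finite_toSet ((ev n).mono fun k hk => by
      have h1 := (hw k).dist_le 0 n (by omega)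
      rw [zero_add, dist_comm] at h1
      simpa only [box, Finset.coe_product, Set.mem_prod, Finset.mem_coe, Finset.mem_Icc, abs_le]
        using abs_le_of_dist h1)
  have l2 : ∀ p : ℕ, ∃ s : ℤ, ∃ c : ZMod p, p.Prime → ∀ᶠ k in U, (((ω k).s p : ℤ) : ZMod p) = s ∧
      (((ω k).c p - ((f k 0).re + (ω k).s p * (f k 0).im) : ℤ) : ZMod p) = c := fun p => by
    by_cases hp : p.Prime
    · have := Fact.mk hp
      obtain ⟨⟨s, c⟩, h⟩ := exists_lim U (fun k => ((((ω k).s p : ℤ) : ZMod p),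
        (((ω k).c p - ((f k 0).re + (ω k).s p * (f k 0).im) : ℤ) : ZMod p))) Set.finite_univ
        (.of_forall fun _ => trivial)
      obtain ⟨s, rfl⟩ := ZMod.intCast_surjective s
      exact ⟨s, c, fun _ => h.mono fun k hk => Prod.mk.inj hk⟩
    · exact ⟨0, 0, fun h => absurd h hp⟩
  choose g hg using l1
  choose s c hs using l2
  have f0 : (0 : ℤ) < M.factorial := by exact_mod_cast M.factorial_pos
  refine P015.M.goalC s (fun p hp h4 => ?_) (M.factorial * ⌈D⌉₊)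
    (fun t => (M.factorial * (g t).1, M.factorial * (g t).2)) (fun i j e => ?_) (fun t => ?_)
    fun p hp h4 => ?_
  · obtain ⟨k, h1, -⟩ := (hs p hp).exists
    have h2 := (ZMod.intCast_zmod_eq_zero_iff_dvd _ _).2 ((ω k).root p hp h4)
    rw [← ZMod.intCast_zmod_eq_zero_iff_dvd]
    push_cast at h2 ⊢
    rwa [← h1]
  · obtain ⟨k, ⟨h1, h2⟩, h3, h4⟩ := (((hg i).and (hg j)).and ((ev i).and (ev j))).exists
    simp only [Prod.mk.injEq, mul_right_inj' f0.ne', ← h1, ← h2, sub_left_inj] at e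
    exact (hw k).1 i h3 j h4 (Zsqrtd.ext e.1 e.2)
  · obtain ⟨k, ⟨h1, h2⟩, h3⟩ := (((hg t).and (hg (t + 1))).and (ev (t + 1))).exists
    have h4 := (hw k).2 t h3
    rw [dist_comm] at h4
    obtain ⟨h5, h6⟩ := abs_le_of_dist h4
    rw [abs_le] at h5 h6
    simp only [box, Finset.mem_product, Finset.mem_Icc, Prod.fst_sub, Prod.snd_sub, ← h1, ← h2]
    push_cast
    refine ⟨⟨?_, ?_⟩, ?_, ?_⟩ <;> nlinarith [h5.1, h5.2, h6.1, h6.2]
  · have := Fact.mk hp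
    by_cases hM : M < p
    · refine ⟨M.factorial * c p, fun t e => ?_⟩
      obtain ⟨k, ⟨h1, h2, h3⟩, h5, h6⟩ := (((hg t).and (hs p hp)).and ((ev t).and (ev p))).exists
      refine hm k p hM h6 t h5 ⟨hp, h4, ?_⟩
      have h7 : (M.factorial : ZMod p) ≠ 0 := fun h =>
        hM.not_ge (hp.dvd_factorial.1 ((ZMod.natCast_eq_zero_iff _ _).1 h))
      simp only [lf, ← h1, ← h3] at e
      push_cast at e ⊢
      rw [← h2] at e
      exact mul_left_cancel₀ h7 (by linear_combination e)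
    · refine ⟨1, fun t e => ?_⟩
      have h7 : (M.factorial : ZMod p) = 0 :=
        (ZMod.natCast_eq_zero_iff _ _).2 (hp.dvd_factorial.2 (not_lt.1 hM))
      simp only [lf] at e
      push_cast at e
      rw [h7] at e
      simp at e

/-- the root of `-1` that belongs to an element of prime norm -/
theorem exists_root {p : ℕ} (hp : p.Prime) {π : GaussianInt} (h : π.norm = p) :
    ∃ s : ℤ, (p : ℤ) ∣ s ^ 2 + 1 ∧
      ∀ z : GaussianInt, ((z.re + s * z.im : ℤ) : ZMod p) = 0 → π ∣ z := by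
  have := Fact.mk hp
  have hp' : Prime (p : ℤ) := Nat.prime_iff_prime_int.1 hp
  have n1 : π.re * π.re + π.im * π.im = p := by rw [← h, Zsqrtd.norm_def]; ring
  have n2 : (π.re : ZMod p) * π.re + π.im * π.im = 0 := by
    have := congrArg (Int.cast : ℤ → ZMod p) n1
    push_cast at this
    rwa [ZMod.natCast_self] at this
  have hy : (π.im : ZMod p) ≠ 0 := fun e => by
    rw [e, mul_zero, add_zero, mul_self_eq_zero] at n2
    obtain ⟨a, ha⟩ := (ZMod.intCast_zmod_eq_zero_iff_dvd _ _).1 n2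
    obtain ⟨b, hb⟩ := (ZMod.intCast_zmod_eq_zero_iff_dvd _ _).1 e
    refine hp'.not_dvd_one ⟨a * a + b * b, mul_left_cancel₀ hp'.ne_zero ?_⟩
    rw [ha, hb] at n1
    linear_combination -n1
  obtain ⟨s, hs⟩ := ZMod.intCast_surjective (-(π.re : ZMod p) / (π.im : ZMod p))
  have hx : (π.re : ZMod p) = -s * π.im := by rw [hs]; field_simp
  have s2 : (s : ZMod p) ^ 2 + 1 = 0 :=
    mul_right_cancel₀ (mul_ne_zero hy hy) (by rw [hx] at n2; linear_combination n2)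
  refine ⟨s, (ZMod.intCast_zmod_eq_zero_iff_dvd _ _).1 (by push_cast; exact s2), fun z hz => ?_⟩
  push_cast at hz
  have hπ : star π ≠ 0 := fun e => by
    rw [star_eq_zero] at e
    exact hy (by rw [e]; simp)
  refine (mul_dvd_mul_iff_right hπ).1 ?_
  rw [← Zsqrtd.norm_eq_mul_conj, h, Zsqrtd.intCast_dvd]
  simp only [← ZMod.intCast_zmod_eq_zero_iff_dvd, Zsqrtd.re_mul, Zsqrtd.im_mul, Zsqrtd.re_star,
    Zsqrtd.im_star]
  push_cast
  rw [hx]
  exact ⟨by linear_combination (-s * π.im : ZMod p) * hz + (z.im * π.im : ZMod p) * s2,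
    by linear_combination (-π.im : ZMod p) * hz⟩

/-- every long walk has a point in `r` of the classes, modulo elements of different norms -/
theorem sieve (r : ℕ) (D : ℝ) (M : ℕ) : ∃ K, ∀ (P : Set GaussianInt)
    (a : GaussianInt → GaussianInt),
    (∀ p : ℕ, p.Prime → p % 4 = 1 → M < p → ∃ π ∈ P, π.norm = p) → ∀ f, Walk D K f →
    ∃ n ≤ K, ∃ T : Finset ℕ, T.card = r ∧ ∃ π : ℕ → GaussianInt,
      ∀ p ∈ T, p.Prime ∧ π p ∈ P ∧ (π p).norm = p ∧ π p ∣ f n - a (π p) := by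
  obtain ⟨K, hK⟩ := many Hit base r D M
  refine ⟨K, fun P a hP f hf => ?_⟩
  have h : ∀ p : ℕ, ∃ π : GaussianInt, ∃ s : ℤ, p.Prime → p % 4 = 1 → (p : ℤ) ∣ s ^ 2 + 1 ∧
      (M < p → π ∈ P ∧ π.norm = p ∧
        ∀ z : GaussianInt, ((z.re + s * z.im : ℤ) : ZMod p) = 0 → π ∣ z) := fun p => by
    by_cases hp : p.Prime ∧ p % 4 = 1
    · by_cases hM : M < p
      · obtain ⟨π, h1, h2⟩ := hP p hp.1 hp.2 hM
        obtain ⟨s, h3, h4⟩ := exists_root hp.1 h2
        exact ⟨π, s, fun _ _ => ⟨h3, fun _ => ⟨h1, h2, h4⟩⟩⟩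
      · have := Fact.mk hp.1
        obtain ⟨x, y, e⟩ := Nat.Prime.sq_add_sq (p := p) (by omega)
        obtain ⟨s, h3, -⟩ := exists_root hp.1 (π := ⟨x, y⟩) (by
          rw [← e, Zsqrtd.norm_def]; push_cast; ring)
        exact ⟨0, s, fun _ _ => ⟨h3, fun h => absurd h hM⟩⟩
    · exact ⟨0, 0, fun h1 h2 => absurd ⟨h1, h2⟩ hp⟩
  choose π s hs using h
  obtain ⟨n, hn, T, t1, t2⟩ := hK ⟨s, fun p => (a (π p)).re + s p * (a (π p)).im,
    fun p h1 h2 => (hs p h1 h2).1⟩ f hf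
  refine ⟨n, hn, T, t1, π, fun p hp => ?_⟩
  obtain ⟨h1, h2, h3, h4⟩ := t2 p hp
  obtain ⟨h5, h6, h7⟩ := (hs p h2 h3).2 h1
  refine ⟨h2, h5, h6, h7 _ ?_⟩
  simp only [Zsqrtd.re_sub, Zsqrtd.im_sub] at h4 ⊢
  push_cast at h4 ⊢
  linear_combination h4

theorem leaves_sieve (r : ℕ) (D : ℝ) (M : ℕ) : ∃ K, ∀ (P : Set GaussianInt)
    (a : GaussianInt → GaussianInt),
    (∀ p : ℕ, p.Prime → p % 4 = 1 → M < p → ∃ π ∈ P, π.norm = p) →
    Leaves {z | {π ∈ P | π ∣ z - a π}.encard ≤ r} D K := by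
  obtain ⟨K, hK⟩ := sieve (r + 1) D M
  refine ⟨K, fun P a hP f hf => ?_⟩
  obtain ⟨n, hn, T, t1, π, t2⟩ := hK P a hP f hf
  refine ⟨n, hn, fun h => ?_⟩
  have h1 := (Set.encard_le_encard_of_injOn (s := T) (t := {π ∈ P | π ∣ f n - a π}) (f := π)
    (fun p hp => ⟨(t2 p hp).2.1, (t2 p hp).2.2.2⟩) fun p hp q hq e => by
      have := (t2 p hp).2.2.1
      rw [e, (t2 q hq).2.2.1] at this
      exact_mod_cast this.symm).trans h
  rw [Set.encard_coe_eq_coe_finsetCard, t1] at h1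
  have : r + 1 ≤ r := by exact_mod_cast h1
  omega

theorem univ_norm (p : ℕ) (hp : p.Prime) (h4 : p % 4 = 1) (_ : 0 < p) :
    ∃ π ∈ (Set.univ : Set GaussianInt), π.norm = p := by
  have := Fact.mk hp
  obtain ⟨x, y, e⟩ := Nat.Prime.sq_add_sq (p := p) (by omega)
  exact ⟨⟨x, y⟩, trivial, by rw [← e, Zsqrtd.norm_def]; push_cast; ring⟩

theorem leaves_norm (r : ℕ) (D : ℝ) :
    ∃ K, Leaves {z | {p : ℕ | p.Prime ∧ (p : ℤ) ∣ z.norm}.encard ≤ r} D K := by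
  obtain ⟨K, hK⟩ := sieve (r + 1) D 0
  refine ⟨K, fun f hf => ?_⟩
  obtain ⟨n, hn, T, t1, π, t2⟩ := hK _ 0 univ_norm f hf
  refine ⟨n, hn, fun h => ?_⟩
  have h1 := (Set.encard_le_encard (s := T) (t := {p : ℕ | p.Prime ∧ (p : ℤ) ∣ (f n).norm})
    fun p hp => ⟨(t2 p hp).1, by
    obtain ⟨-, -, h2, w, h3⟩ := t2 p hp
    rw [Pi.zero_apply, sub_zero] at h3
    exact ⟨w.norm, by rw [h3, Zsqrtd.norm_mul, h2]⟩⟩).trans h
  rw [Set.encard_coe_eq_coe_finsetCard, t1] at h1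
  have : r + 1 ≤ r := by exact_mod_cast h1
  omega

theorem leaves_irreducible (D : ℝ) : ∃ K, Leaves {z | Irreducible z} D K := by
  obtain ⟨K, hK⟩ := sieve 2 D 0
  refine ⟨K, fun f hf => ?_⟩
  obtain ⟨n, hn, T, t1, π, t2⟩ := hK _ 0 univ_norm f hf
  refine ⟨n, hn, fun h => ?_⟩
  have h1 : ∀ p ∈ T, (f n).norm.natAbs = p := fun p hp => by
    obtain ⟨h1, -, h2, w, h3⟩ := t2 p hp
    rw [Pi.zero_apply, sub_zero] at h3
    rcases (show Irreducible (f n) from h).isUnit_or_isUnit h3 with h4 | h4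
    · rw [← Zsqrtd.norm_eq_one_iff, h2] at h4
      exact absurd h4 h1.ne_one
    · rw [← Zsqrtd.norm_eq_one_iff] at h4
      rw [h3, Zsqrtd.norm_mul, Int.natAbs_mul, h4, h2, mul_one, Int.natAbs_natCast]
  obtain ⟨p, q, ne, rfl⟩ := Finset.card_eq_two.1 t1
  exact ne ((h1 p (by simp)).symm.trans (h1 q (by simp)))

end Vale.Agent.N015P
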