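import Vale.Agent.N015P.Defs
import Vale.Agent.P015.MathlibUsed

/-!
# P015: walks, the passage from one prime to many primes, components
-/

namespace Vale.Agent.N015P

open GaussianInt

/-- an injective walk `f 0, …, f k` with steps at most `D` -/
def Walk (D : ℝ) (k : ℕ) (f : ℕ → GaussianInt) : Prop :=
  (∀ i ≤ k, ∀ j ≤ k, f i = f j → i = j) ∧ ∀ n < k, dist (f n : ℂ) (f (n + 1) : ℂ) ≤ D

variable {D : ℝ} {k : ℕ} {f : ℕ → GaussianInt}

theorem Walk.shift (h : Walk D k f) {m l : ℕ} (hm : m + l ≤ k) : Walk D l fun n => f (m + n) :=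
  ⟨fun i hi j hj e => by have := h.1 _ (by omega) _ (by omega) e; omega,
    fun n hn => h.2 (m + n) (by omega)⟩

theorem Walk.dist_le (h : Walk D k f) (i : ℕ) : ∀ d, i + d ≤ k →
    dist (f i : ℂ) (f (i + d) : ℂ) ≤ d * |D|
  | 0, _ => by simp
  | d + 1, hd => by
    have h1 := h.dist_le i d (by omega)
    have h2 := (h.2 (i + d) (by omega)).trans (le_abs_self D)
    have h3 := dist_triangle (f i : ℂ) (f (i + d) : ℂ) (f (i + d + 1) : ℂ)
    rw [← add_assoc]
    push_cast
    linarith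

/-- from one hit to `r` simultaneous hits -/
theorem many {Ω : Type*} (H : Ω → ℕ → GaussianInt → Prop)
    (base : ∀ (D : ℝ) (M : ℕ), ∃ k, ∀ ω f, Walk D k f →
      ∃ p, M < p ∧ p ≤ k ∧ ∃ n ≤ k, H ω p (f n)) (r : ℕ) :
    ∀ (D : ℝ) (M : ℕ), ∃ K, ∀ ω f, Walk D K f →
      ∃ n ≤ K, ∃ T : Finset ℕ, T.card = r ∧ ∀ p ∈ T, M < p ∧ H ω p (f n) := by
  induction r with
  | zero => exact fun D M => ⟨0, fun ω f _ => ⟨0, le_rfl, ∅, rfl, by simp⟩⟩
  | succ r ih =>
    intro D M
    obtain ⟨k, hk⟩ := base D M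
    have key : ∀ t : ℕ, ∃ L, ∀ ω f, Walk D L f →
        (∃ n ≤ L, ∃ T : Finset ℕ, T.card = r + 1 ∧ ∀ p ∈ T, M < p ∧ H ω p (f n)) ∨
        ∃ m, m + k ≤ L ∧ ∀ p < t, M < p → ∀ n ≤ k, ¬ H ω p (f (m + n)) := by
      intro t
      induction t with
      | zero => exact ⟨k, fun ω f _ => .inr ⟨0, by omega, by simp⟩⟩
      | succ t iht =>
        obtain ⟨L, hL⟩ := iht
        obtain ⟨K, hK⟩ := ih (2 * (L + 1) * |D|) (max M t)
        refine ⟨(K + 1) * (L + 1), fun ω f hf => ?_⟩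
        have le : ∀ j ≤ K, j * (L + 1) + L ≤ (K + 1) * (L + 1) := fun j hj => by nlinarith
        by_cases hb : ∀ j ≤ K, ∃ n ≤ L, M < t ∧ H ω t (f (j * (L + 1) + n))
        · choose! n n1 n2 n3 using hb
          have hw : Walk (2 * (L + 1) * |D|) K fun j => f (j * (L + 1) + n j) := by
            refine ⟨fun i hi j hj e => ?_, fun j hj => ?_⟩
            · have h1 := n1 i hi
              have h2 := n1 j hj
              have h3 := hf.1 _ (by have := le i hi; omega) _ (by have := le j hj; omega) e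
              by_contra ne
              rcases lt_or_gt_of_ne ne with h | h <;> nlinarith
            · have h1 := n1 j hj.le
              have h2 := n1 (j + 1) hj
              have h3 := le (j + 1) hj
              have e : (j + 1) * (L + 1) + n (j + 1) =
                  j * (L + 1) + n j + (L + 1 + n (j + 1) - n j) := by
                rw [add_mul]; omega
              have h4 := hf.dist_le (j * (L + 1) + n j) (L + 1 + n (j + 1) - n j) (by omega)
              rw [← e] at h4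
              refine h4.trans (mul_le_mul_of_nonneg_right ?_ (abs_nonneg D))
              exact_mod_cast (by omega : L + 1 + n (j + 1) - n j ≤ 2 * (L + 1))
          obtain ⟨j, hj, T, t1, t2⟩ := hK ω _ hw
          have nt : t ∉ T := fun h => (le_max_right M t).not_gt (t2 t h).1
          refine .inl ⟨j * (L + 1) + n j, by have := le j hj; have := n1 j hj; omega, insert t T,
            by rw [Finset.card_insert_of_notMem nt, t1], fun p hp => ?_⟩
          rcases Finset.mem_insert.1 hp with rfl | hp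
          · exact ⟨n2 j hj, n3 j hj⟩
          · exact ⟨(le_max_left M t).trans_lt (t2 p hp).1, (t2 p hp).2⟩
        · push Not at hb
          obtain ⟨j, hj, hb⟩ := hb
          rcases hL ω _ (hf.shift (le j hj)) with ⟨n, hn, h⟩ | ⟨m, hm, h⟩
          · exact .inl ⟨j * (L + 1) + n, by have := le j hj; omega, h⟩
          · refine .inr ⟨j * (L + 1) + m, by have := le j hj; omega, fun p hp hM n hn => ?_⟩
            rw [add_assoc]
            rcases (Nat.lt_succ_iff.1 hp).eq_or_lt with rfl | hp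
            · exact hb _ (by omega) hM
            · exact h p hp hM n hn
    obtain ⟨L, hL⟩ := key (k + 1)
    refine ⟨L, fun ω f hf => (hL ω f hf).resolve_right ?_⟩
    rintro ⟨m, hm, h⟩
    obtain ⟨p, p1, p2, n, hn, h1⟩ := hk ω _ (hf.shift hm)
    exact h p (by omega) p1 n hn h1

theorem dist_eq (z w : GaussianInt) : dist (z : ℂ) (w : ℂ) =
    √(((z.re : ℝ) - w.re) ^ 2 + ((z.im : ℝ) - w.im) ^ 2) := by
  rw [Complex.dist_eq_re_im]
  simp only [← intCast_re, ← intCast_im]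

theorem adj_iff {S : Set GaussianInt} {z w : S} :
    (distGraph S D).Adj z w ↔ z ≠ w ∧ dist (z.1 : ℂ) (w.1 : ℂ) ≤ D := by
  rw [distGraph, SimpleGraph.fromRel_adj, ← dist_eq, ← dist_eq, dist_comm (w.1 : ℂ), or_self]

/-- every walk of `k` steps leaves `S` -/
def Leaves (S : Set GaussianInt) (D : ℝ) (k : ℕ) : Prop := ∀ f, Walk D k f → ∃ n ≤ k, f n ∉ S

theorem Leaves.dist_le {S : Set GaussianInt} (h : Leaves S D k) {z w : S}
    (hr : (distGraph S D).Reachable z w) : dist (z.1 : ℂ) (w.1 : ℂ) ≤ k * |D| := by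
  classical
  obtain ⟨p, hp⟩ := hr.exists_isPath
  have hw : Walk D p.length fun n => (p.getVert n).1 :=
    ⟨fun i hi j hj e => hp.getVert_injOn hi hj (Subtype.ext e),
      fun n hn => (adj_iff.1 (p.adj_getVert_succ hn)).2⟩
  have hl : p.length ≤ k := by
    by_contra hk
    obtain ⟨n, -, hn⟩ := h _ (hw.shift (m := 0) (l := k) (by omega))
    exact hn (p.getVert _).2
  have h1 := hw.dist_le 0 p.length (by omega)
  rw [zero_add, p.getVert_zero, p.getVert_length] at h1
  exact h1.trans (mul_le_mul_of_nonneg_right (by exact_mod_cast hl) (abs_nonneg D))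

theorem abs_le_of_dist {z w : GaussianInt} {R : ℝ} (h : dist (z : ℂ) (w : ℂ) ≤ R) :
    |z.re - w.re| ≤ ⌈R⌉₊ ∧ |z.im - w.im| ≤ ⌈R⌉₊ := by
  rw [Complex.dist_eq] at h
  have h2 := h.trans (Nat.le_ceil R)
  have h3 := (Complex.abs_re_le_norm _).trans h2
  have h4 := (Complex.abs_im_le_norm _).trans h2
  simp only [Complex.sub_re, Complex.sub_im, ← intCast_re, ← intCast_im] at h3 h4
  exact ⟨by exact_mod_cast h3, by exact_mod_cast h4⟩

theorem comp_le (D : ℝ) (k : ℕ) : ∃ B : ℕ, ∀ S, Leaves S D k →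
    ∀ C : (distGraph S D).ConnectedComponent, C.supp.encard ≤ B := by
  let I : Finset ℤ := Finset.Icc (-(⌈k * |D|⌉₊ : ℤ)) ⌈k * |D|⌉₊
  refine ⟨(I ×ˢ I).card, fun S h C => ?_⟩
  obtain ⟨z, rfl⟩ := C.exists_rep
  rw [← Set.encard_coe_eq_coe_finsetCard]
  refine Set.encard_le_encard_of_injOn (f := fun w => (w.1.re - z.1.re, w.1.im - z.1.im))
    (fun w hw => ?_) fun w _ w' _ e => ?_
  · have h1 := abs_le_of_dist (h.dist_le (SimpleGraph.ConnectedComponent.exact hw))
    simpa only [I, Finset.coe_product, Set.mem_prod, Finset.mem_coe, Finset.mem_Icc, abs_le]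
      using h1
  · rw [Prod.mk.injEq, sub_left_inj, sub_left_inj] at e
    exact Subtype.ext (Zsqrtd.ext e.1 e.2)

theorem Leaves.hole {S : Set GaussianInt} (h : Leaves S (2 * (D + 1)) k) {A : Set ℂ}
    (hA : IsPreconnected A) {u v : ℂ} (hu : u ∈ A) (hv : v ∈ A)
    (huv : (k + 1) * |2 * (D + 1)| ≤ dist u v) :
    ∃ c ∈ A, ∀ z : GaussianInt, dist (z : ℂ) c ≤ D → z ∉ S := by
  by_contra! hc
  obtain ⟨z, z1, z2⟩ := hc u hu
  let G := distGraph S (2 * (D + 1))
  let U : (S → Prop) → Set ℂ := fun Q => ⋃ w, ⋃ (_ : Q w), Metric.ball (w.1 : ℂ) (D + 1)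
  have op : ∀ Q, IsOpen (U Q) := fun Q =>
    isOpen_iUnion fun _ => isOpen_iUnion fun _ => Metric.isOpen_ball
  have mem : ∀ (Q : S → Prop) (w : S) c, Q w → dist (w.1 : ℂ) c ≤ D → c ∈ U Q := fun Q w c h1 h2 =>
    Set.mem_iUnion₂.2 ⟨w, h1, by rw [Metric.mem_ball, dist_comm]; linarith⟩
  have sub : A ⊆ U (G.Reachable ⟨z, z2⟩) := by
    refine hA.subset_left_of_subset_union (op _) (op fun w => ¬ G.Reachable ⟨z, z2⟩ w) ?_
      (fun c hcA => ?_) ⟨u, hu, mem _ ⟨z, z2⟩ u .rfl z1⟩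
    · refine Set.disjoint_left.2 fun c h1 h2 => ?_
      obtain ⟨w, w1, w2⟩ := Set.mem_iUnion₂.1 h1
      obtain ⟨w', w3, w4⟩ := Set.mem_iUnion₂.1 h2
      refine w3 (w1.trans (SimpleGraph.Adj.reachable (adj_iff.2 ⟨fun e => w3 (e ▸ w1), ?_⟩)))
      have := dist_triangle_left (w.1 : ℂ) (w'.1 : ℂ) c
      rw [Metric.mem_ball] at w2 w4
      linarith
    · obtain ⟨w, w1, w2⟩ := hc c hcA
      by_cases hr : G.Reachable ⟨z, z2⟩ ⟨w, w2⟩
      · exact .inl (mem _ ⟨w, w2⟩ c hr w1)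
      · exact .inr (mem _ ⟨w, w2⟩ c hr w1)
  obtain ⟨w, w1, w2⟩ := Set.mem_iUnion₂.1 (sub hv)
  have h1 := h.dist_le w1
  have h2 := dist_triangle4 u (z : ℂ) (w.1 : ℂ) v
  rw [Metric.mem_ball, dist_comm] at w2
  rw [dist_comm] at z1
  have h3 := le_abs_self (2 * (D + 1))
  rw [add_mul] at huv
  change dist (z : ℂ) _ ≤ _ at h1
  linarith

end Vale.Agent.N015P
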