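import Mathlib.Analysis.SpecialFunctions.Sqrt
import Mathlib.Combinatorics.SimpleGraph.Connectivity.Connected
import Mathlib.NumberTheory.Zsqrtd.GaussianInt

/-!
# P015: the distance graph on a set of Gaussian integers
-/

namespace Vale.Agent.N015P

/-- The simple graph on a set `S` of Gaussian integers in which two distinct vertices `a + b i`,
`c + d i` are joined when `√((a - c)² + (b - d)²) ≤ D`. -/
def distGraph (S : Set GaussianInt) (D : ℝ) : SimpleGraph S :=
  SimpleGraph.fromRel fun z w =>
    √(((z.1.re : ℝ) - w.1.re) ^ 2 + ((z.1.im : ℝ) - w.1.im) ^ 2) ≤ D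

end Vale.Agent.N015P
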